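import Mathlib
import Vale.Agent.P237.Front.Transport

/-!
Moments of the ball weights `√(1 - x ^ 2) ^ j` on the unit interval.
-/

namespace Vale.Agent.P237.Uniform

open MeasureTheory Set Front

/-- The mass of the ball weight. -/
noncomputable def ballZ (j : ℕ) : ℝ := ∫ x in Ioo (0 : ℝ) 1, q0 j x

theorem sqrt_sq_of_mem {x : ℝ} (hx : x ∈ Ioo (0 : ℝ) 1) : √(1 - x ^ 2) ^ 2 = 1 - x ^ 2 :=
  Real.sq_sqrt (by nlinarith [hx.1, hx.2])

theorem one_sub_sq_pos {x : ℝ} (hx : x ∈ Ioo (0 : ℝ) 1) : 0 < 1 - x ^ 2 := by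
  nlinarith [hx.1, hx.2]

theorem q0_add_two {x : ℝ} (hx : x ∈ Ioo (0 : ℝ) 1) (j : ℕ) :
    q0 (j + 2) x = q0 j x * (1 - x ^ 2) := by
  rw [q0, q0, pow_add, sqrt_sq_of_mem hx]

theorem q0_add_four {x : ℝ} (hx : x ∈ Ioo (0 : ℝ) 1) (j : ℕ) :
    q0 (j + 4) x = q0 j x * (1 - x ^ 2) ^ 2 := by
  rw [q0_add_two hx (j + 2), q0_add_two hx j]; ring

theorem hasDerivAt_q0 {x : ℝ} (hx : x ∈ Ioo (0 : ℝ) 1) (j : ℕ) :
    HasDerivAt (q0 (j + 2)) (-((j : ℝ) + 2) * x * q0 j x) x := by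
  have h1 : HasDerivAt (fun y : ℝ => 1 - y ^ 2) (-(2 * x)) x := by
    simpa using (hasDerivAt_pow 2 x).const_sub 1
  have h2 : HasDerivAt (fun y => √(1 - y ^ 2) ^ (j + 2)) _ x :=
    (h1.sqrt (one_sub_sq_pos hx).ne').pow (j + 2)
  refine h2.congr_deriv ?_
  have hs : 0 < √(1 - x ^ 2) := Real.sqrt_pos.2 (one_sub_sq_pos hx)
  rw [q0, show j + 2 - 1 = j + 1 from rfl, pow_succ]
  push_cast
  field_simp

theorem integrable_q0_mul (j : ℕ) {f : ℝ → ℝ} (hf : Continuous f) :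
    IntegrableOn (fun x => f x * q0 j x) (Ioo 0 1) :=
  (hf.mul (continuous_q0 j)).integrableOn_Icc.mono_set Ioo_subset_Icc_self

theorem integrable_q0 (j : ℕ) : IntegrableOn (q0 j) (Ioo 0 1) :=
  (continuous_q0 j).integrableOn_Icc.mono_set Ioo_subset_Icc_self

theorem ballZ_pos (j : ℕ) : 0 < ballZ j := ballMass_pos j

/-- Integration by parts against a power of `x`. -/
theorem moment_rec (p j : ℕ) :
    ((j : ℝ) + 2) * ∫ x in Ioo (0 : ℝ) 1, x ^ (p + 2) * q0 j x =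
      ((p : ℝ) + 1) * ∫ x in Ioo (0 : ℝ) 1, x ^ p * q0 (j + 2) x := by
  have i1 := integrable_q0_mul j (f := fun x => x ^ (p + 2)) (by fun_prop)
  have i2 := integrable_q0_mul (j + 2) (f := fun x => x ^ p) (by fun_prop)
  have hd : ∀ x ∈ Ioo (0 : ℝ) 1, HasDerivAt (fun y => y ^ (p + 1) * q0 (j + 2) y)
      (((p : ℝ) + 1) * (x ^ p * q0 (j + 2) x) - ((j : ℝ) + 2) * (x ^ (p + 2) * q0 j x)) x :=
    fun x hx => by
    refine ((hasDerivAt_pow (p + 1) x).mul (hasDerivAt_q0 hx j)).congr_deriv ?_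
    rw [Nat.add_sub_cancel]
    push_cast
    ring
  have h := intervalIntegral.integral_eq_sub_of_hasDerivAt_of_le zero_le_one
    ((continuous_pow (p + 1)).mul (continuous_q0 (j + 2))).continuousOn hd
    ((intervalIntegrable_iff_integrableOn_Ioo_of_le zero_le_one).2
      ((i2.const_mul _).sub (i1.const_mul _)))
  rw [intervalIntegral.integral_of_le zero_le_one, integral_Ioc_eq_integral_Ioo] at h
  rw [integral_sub (i2.const_mul _) (i1.const_mul _), integral_const_mul, integral_const_mul] at h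
  simp [q0] at h
  simp only [q0]
  linarith

theorem moment_two (j : ℕ) :
    ((j : ℝ) + 2) * ∫ x in Ioo (0 : ℝ) 1, x ^ 2 * q0 j x = ballZ (j + 2) := by
  simpa [ballZ] using moment_rec 0 j

theorem moment_four (j : ℕ) :
    ((j : ℝ) + 2) * ((j : ℝ) + 4) * ∫ x in Ioo (0 : ℝ) 1, x ^ 4 * q0 j x =
      3 * ballZ (j + 4) := by
  have h1 := moment_rec 2 j
  have h2 := moment_two (j + 2)
  push_cast at h1 h2
  rw [show j + 2 + 2 = j + 4 from rfl] at h2
  calc ((j : ℝ) + 2) * ((j : ℝ) + 4) * ∫ x in Ioo (0 : ℝ) 1, x ^ 4 * q0 j x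
      = ((j : ℝ) + 4) * (((j : ℝ) + 2) * ∫ x in Ioo (0 : ℝ) 1, x ^ (2 + 2) * q0 j x) := by
        norm_num; ring
    _ = _ := by rw [h1, ← h2]; ring

theorem ballZ_rec (j : ℕ) : ((j : ℝ) + 3) * ballZ (j + 2) = ((j : ℝ) + 2) * ballZ j := by
  have e : ballZ (j + 2) = ballZ j - ∫ x in Ioo (0 : ℝ) 1, x ^ 2 * q0 j x := by
    rw [ballZ, ballZ, ← integral_sub (integrable_q0 j) (integrable_q0_mul j (by fun_prop))]
    refine setIntegral_congr_fun measurableSet_Ioo fun x hx => ?_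
    rw [q0_add_two hx j]; ring
  linear_combination ((j : ℝ) + 2) * e - moment_two j

/-- The mass is at most that of a Gaussian. -/
theorem ballZ_sq_le (m : ℕ) (hm : 0 < m) : ballZ m ^ 2 ≤ Real.pi / (2 * m) := by
  have hb : (0 : ℝ) < m / 2 := by positivity
  have hg : ∀ x ∈ Ioo (0 : ℝ) 1, q0 m x ≤ Real.exp (-(m / 2 : ℝ) * x ^ 2) := fun x hx => by
    have h : √(1 - x ^ 2) ≤ Real.exp (-(x ^ 2 / 2)) := by
      rw [Real.sqrt_le_left (Real.exp_pos _).le, ← Real.exp_nat_mul]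
      rw [show ((2 : ℕ) : ℝ) * -(x ^ 2 / 2) = -x ^ 2 by push_cast; ring]
      linarith [Real.add_one_le_exp (-x ^ 2)]
    refine (pow_le_pow_left₀ (Real.sqrt_nonneg _) h m).trans (le_of_eq ?_)
    rw [← Real.exp_nat_mul]; ring_nf
  have h1 : ballZ m ≤ √(Real.pi / (m / 2)) / 2 := by
    refine (setIntegral_mono_on (integrable_q0 m)
      ((by fun_prop : Continuous fun x : ℝ => Real.exp (-(m / 2 : ℝ) * x ^ 2)).integrableOn_Icc.mono_set
        Ioo_subset_Icc_self) measurableSet_Ioo hg).trans ?_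
    rw [← integral_gaussian_Ioi]
    exact setIntegral_mono_set ((integrable_exp_neg_mul_sq hb).integrableOn)
      (Filter.Eventually.of_forall fun x => (Real.exp_pos _).le)
      (Ioo_subset_Ioi_self).eventuallyLE
  refine (pow_le_pow_left₀ (ballZ_pos m).le h1 2).trans (le_of_eq ?_)
  rw [div_pow, Real.sq_sqrt (by positivity)]
  field_simp

/-- The ball tail is large against the weight. -/
theorem ball_tail (m : ℕ) {x : ℝ} (hx : x ∈ Ioo (0 : ℝ) 1) :
    q0 m x * (1 - x ^ 2) ≤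
      (((m : ℝ) + 2) * x + √((m : ℝ) + 2)) * ∫ t in Ioo x 1, q0 m t := by
  set b := √((m : ℝ) + 2) with hb
  have hb0 : 0 < b := Real.sqrt_pos.2 (by positivity)
  have hb2 : b ^ 2 = (m : ℝ) + 2 := Real.sq_sqrt (by positivity)
  set A : ℝ → ℝ := fun t => ((m : ℝ) + 2) * t + b with hA
  have hA0 : ∀ t ∈ Icc x 1, 0 < A t := fun t ht => by
    have : 0 ≤ t := hx.1.le.trans ht.1
    positivity
  have hsub : Ioo x 1 ⊆ Ioo 0 1 := Ioo_subset_Ioo_left hx.1.le
  have hd : ∀ t ∈ Ioo x 1, HasDerivAt (fun y => -(q0 (m + 2) y / A y))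
      (((m : ℝ) + 2) * (t * q0 m t * A t + q0 (m + 2) t) / A t ^ 2) t := fun t ht => by
    refine (((hasDerivAt_q0 (hsub ht) m).div (((hasDerivAt_id t).const_mul _).add_const b)
      (hA0 t (Ioo_subset_Icc_self ht)).ne').neg).congr_deriv ?_
    simp only [hA, id, mul_one]
    ring
  have hcA : ContinuousOn (fun t => ((m : ℝ) + 2) * (t * q0 m t * A t + q0 (m + 2) t) / A t ^ 2)
      (Icc x 1) := by
    refine ContinuousOn.div ?_ (by fun_prop) fun t ht => (pow_pos (hA0 t ht) 2).ne'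
    have := continuous_q0 m
    have := continuous_q0 (m + 2)
    fun_prop
  have h := intervalIntegral.integral_eq_sub_of_hasDerivAt_of_le hx.2.le
    ((((continuous_q0 (m + 2)).continuousOn).div (by fun_prop)
      fun t ht => (hA0 t ht).ne').neg) hd
    (hcA.intervalIntegrable_of_Icc hx.2.le)
  rw [intervalIntegral.integral_of_le hx.2.le, integral_Ioc_eq_integral_Ioo] at h
  have hle : (∫ t in Ioo x 1, ((m : ℝ) + 2) * (t * q0 m t * A t + q0 (m + 2) t) / A t ^ 2) ≤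
      ∫ t in Ioo x 1, q0 m t := by
    refine setIntegral_mono_on (hcA.integrableOn_Icc.mono_set Ioo_subset_Icc_self)
      ((continuous_q0 m).integrableOn_Icc.mono_set Ioo_subset_Icc_self) measurableSet_Ioo
      fun t ht => ?_
    have hA1 := hA0 t (Ioo_subset_Icc_self ht)
    rw [div_le_iff₀ (pow_pos hA1 2), q0_add_two (hsub ht) m]
    have ht0 : 0 ≤ t := (hsub ht).1.le
    have key : ((m : ℝ) + 2) * (t * A t + (1 - t ^ 2)) ≤ A t ^ 2 := by
      simp only [hA]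
      nlinarith [mul_nonneg (mul_nonneg hb0.le ht0) (show (0 : ℝ) ≤ (m : ℝ) + 2 by positivity),
        mul_nonneg (sq_nonneg t) (show (0 : ℝ) ≤ (m : ℝ) + 2 by positivity)]
    nlinarith [mul_le_mul_of_nonneg_left key (q0_pos (m := m) (hsub ht)).le]
  have hone : q0 (m + 2) 1 = 0 := by simp [q0]
  simp only [Pi.neg_apply, Pi.div_apply, hone, zero_div, neg_zero, zero_sub, neg_neg] at h
  have hAx := hA0 x (left_mem_Icc.2 hx.2.le)
  rw [← q0_add_two hx m]
  have := (div_le_iff₀ hAx).1 (h ▸ hle)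
  linarith

end Vale.Agent.P237.Uniform
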