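import Mathlib
import Vale.Agent.P237.Uniform.Moments

/-!
The slope of the ball transport is controlled by its value at the origin.
-/

namespace Vale.Agent.P237.Uniform

open MeasureTheory Set Front Full Loss

variable {m : ℕ} {φ : ℝ → ℝ}

private lemma sub_Ioo : Ioo (0 : ℝ) 1 ⊆ Ioo (-1) 1 := Ioo_subset_Ioo_left (by norm_num)

theorem profile_antitone (hφ : IsProfile m φ) {x y : ℝ} (hx : 0 ≤ x) (hxy : x ≤ y) (hy : y ≤ 1) :
    φ y ≤ φ x := by
  have hyI : y ∈ Icc (-1 : ℝ) 1 := ⟨by linarith, hy⟩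
  have hyN : -y ∈ Icc (-1 : ℝ) 1 := ⟨by linarith, by linarith⟩
  rcases eq_or_lt_of_le (hx.trans hxy) with h0 | h0
  · rw [show x = y by linarith]
  have h := hφ.concave.2 hyI hyN (show 0 ≤ (y + x) / (2 * y) by positivity)
    (show 0 ≤ (y - x) / (2 * y) from div_nonneg (by linarith) (by linarith))
    (by field_simp; ring)
  simp only [smul_eq_mul, hφ.even] at h
  rw [show (y + x) / (2 * y) * y + (y - x) / (2 * y) * -y = x by field_simp; ring,
    ← add_mul, show (y + x) / (2 * y) + (y - x) / (2 * y) = 1 by field_simp; ring, one_mul] at h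
  exact h

/-- Concavity makes the ratio of shifted values decrease. -/
theorem profile_shift (hφ : IsProfile m φ) {s t : ℝ} (hs : 0 ≤ s) (hst : s ≤ t) (ht : t ≤ 1)
    (hpos : 0 < φ t) : φ t * φ 0 ≤ φ s * φ (t - s) := by
  rcases eq_or_lt_of_le (hs.trans hst) with h0 | h0
  · rw [show t - s = 0 by linarith, show s = t by linarith]
  have htI : t ∈ Icc (-1 : ℝ) 1 := ⟨by linarith, ht⟩
  have h0I : (0 : ℝ) ∈ Icc (-1 : ℝ) 1 := by simp
  set l := s / t with hl
  have hl0 : 0 ≤ l := div_nonneg hs h0.le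
  have hl1 : l ≤ 1 := (div_le_one h0).2 hst
  have e : l * t = s := div_mul_cancel₀ _ h0.ne'
  have hA := hφ.concave.2 htI h0I hl0 (show 0 ≤ 1 - l by linarith) (by ring)
  have hB := hφ.concave.2 htI h0I (show 0 ≤ 1 - l by linarith) hl0 (by ring)
  simp only [smul_eq_mul, mul_zero, add_zero] at hA hB
  rw [e] at hA
  rw [show (1 - l) * t = t - s by linarith] at hB
  have hd : φ t ≤ φ 0 := profile_antitone hφ le_rfl h0.le ht
  have hC : φ t ≤ φ (t - s) := profile_antitone hφ (by linarith) (by linarith) ht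
  have hS : φ t ≤ φ s := profile_antitone hφ hs hst ht
  nlinarith [mul_nonneg (sub_nonneg.2 hS) (sub_nonneg.2 hC),
    mul_le_mul_of_nonneg_left (add_le_add hA hB) hpos.le]

/-- The hazard of the profile density is least at the origin. -/
theorem profile_hazard (hφ : IsProfile m φ) {s : ℝ} (hs : s ∈ Ioo (0 : ℝ) 1) :
    φ 0 ^ m * ∫ t in Ioo s 1, φ t ^ m ≤ φ s ^ m * ∫ t in Ioo (0 : ℝ) 1, φ t ^ m := by
  have hsub : Ioo s 1 ⊆ Ioo (0 : ℝ) 1 := Ioo_subset_Ioo_left hs.1.le
  have hi := (intervalIntegrable_iff_integrableOn_Ioo_of_le zero_le_one).1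
    (intervalIntegrable_pow hφ m)
  have hsh : IntervalIntegrable (fun t => φ (t - s) ^ m) volume s 1 := by
    have h := ((intervalIntegrable_pow hφ m).mono_set (c := 0) (d := 1 - s) (by
      rw [uIcc_of_le (by linarith [hs.2]), uIcc_of_le zero_le_one]
      exact Icc_subset_Icc le_rfl (by linarith [hs.1]))).comp_sub_right s
    simpa using h
  rw [← integral_const_mul]
  refine (setIntegral_mono_on ((hi.mono_set hsub).const_mul _)
    (((intervalIntegrable_iff_integrableOn_Ioo_of_le hs.2.le).1 hsh).const_mul (φ s ^ m))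
    measurableSet_Ioo fun t ht => ?_).trans ?_
  · rw [← mul_pow, ← mul_pow, mul_comm]
    have hp := profile_pos hφ (sub_Ioo (hsub ht))
    exact pow_le_pow_left₀ (mul_nonneg hp.le (hp.le.trans
      (profile_antitone hφ le_rfl (hsub ht).1.le (hsub ht).2.le)))
      (profile_shift hφ hs.1.le ht.1.le ht.2.le hp) m
  · rw [integral_const_mul]
    refine mul_le_mul_of_nonneg_left ?_ (pow_nonneg (profile_pos hφ (sub_Ioo hs)).le m)
    rw [← integral_Ioc_eq_integral_Ioo, ← intervalIntegral.integral_of_le hs.2.le,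
      intervalIntegral.integral_comp_sub_right (fun t => φ t ^ m) s, sub_self,
      intervalIntegral.integral_of_le (by linarith [hs.2]), integral_Ioc_eq_integral_Ioo]
    refine setIntegral_mono_set hi ?_ (Ioo_subset_Ioo_right (by linarith [hs.1])).eventuallyLE
    filter_upwards [ae_restrict_mem measurableSet_Ioo] with t ht
    exact pow_nonneg (profile_pos hφ (sub_Ioo ht)).le m

/-- The value of the slope at the origin. -/
noncomputable def slopeZero (m : ℕ) (φ : ℝ → ℝ) : ℝ := volRatio m φ / φ 0 ^ m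

theorem profile_zero_pos (hφ : IsProfile m φ) : 0 < φ 0 := profile_pos hφ (by norm_num)

theorem slopeZero_mul_q0_le (hφ : IsProfile m φ) {x : ℝ} (hx : x ∈ Ioo (0 : ℝ) 1) :
    slopeZero m φ * q0 m x ≤ ballSlope m φ x := by
  obtain ⟨-, -, -, -, hmem, -, -⟩ := ballMap_props hφ
  have hp := profile_pos hφ (sub_Ioo (hmem x hx))
  rw [slopeZero, ballSlope, div_mul_eq_mul_div]
  exact div_le_div_of_nonneg_left (mul_pos (volRatio_pos hφ) (q0_pos hx)).le (pow_pos hp m)
    (pow_le_pow_left₀ hp.le (profile_le_top hφ (Ioo_subset_Icc_self (sub_Ioo (hmem x hx)))) m)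

/-- The slope against the hazard of the ball. -/
theorem ballSlope_le (hφ : IsProfile m φ) {x : ℝ} (hx : x ∈ Ioo (0 : ℝ) 1) :
    ballSlope m φ x * (1 - x ^ 2) ≤
      slopeZero m φ * ballZ m * (((m : ℝ) + 2) * x + √((m : ℝ) + 2)) := by
  obtain ⟨hSm, -, -, -, hmem, -, -⟩ := ballMap_props hφ
  set s := ballMap m φ x with hs
  obtain ⟨-, he⟩ := integral_comp_ballMap hφ ((Ioi s).indicator fun _ => (1 : ℝ))
  have hsI := hmem x hx
  have e1 : (∫ t in Ioo (0 : ℝ) 1, (Ioi s).indicator (fun _ => (1 : ℝ)) t * φ t ^ m) =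
      ∫ t in Ioo s 1, φ t ^ m := by
    rw [show Ioo s 1 = Ioo (0 : ℝ) 1 ∩ Ioi s by
      ext t; simp only [mem_Ioo, mem_inter_iff, mem_Ioi]; constructor
      · exact fun h => ⟨⟨hsI.1.trans h.1, h.2⟩, h.1⟩
      · exact fun h => ⟨h.2, h.1.2⟩,
      ← setIntegral_indicator measurableSet_Ioi]
    refine setIntegral_congr_fun measurableSet_Ioo fun t _ => ?_
    by_cases h : t ∈ Ioi s <;> simp [h]
  have e2 : (∫ y in Ioo (0 : ℝ) 1, (Ioi s).indicator (fun _ => (1 : ℝ)) (ballMap m φ y) *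
      q0 m y) = ∫ y in Ioo x 1, q0 m y := by
    rw [show Ioo x 1 = Ioo (0 : ℝ) 1 ∩ Ioi x by
      ext t; simp only [mem_Ioo, mem_inter_iff, mem_Ioi]; constructor
      · exact fun h => ⟨⟨hx.1.trans h.1, h.2⟩, h.1⟩
      · exact fun h => ⟨h.2, h.1.2⟩,
      ← setIntegral_indicator measurableSet_Ioi]
    refine setIntegral_congr_fun measurableSet_Ioo fun t ht => ?_
    have hiff := hSm.lt_iff_lt (Ioo_subset_Icc_self hx) (Ioo_subset_Icc_self ht)
    by_cases h : t ∈ Ioi x
    · simp [h, mem_Ioi.2 (hiff.2 h), hs]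
    · have : ballMap m φ t ∉ Ioi s := fun h' => h (hiff.1 h')
      simp [h, this]
  rw [e1, e2] at he
  have hh := profile_hazard hφ hsI
  rw [he] at hh
  have ht := ball_tail m hx
  have hv := volRatio_pos hφ
  have hV : (∫ t in Ioo (0 : ℝ) 1, φ t ^ m) = volRatio m φ * ballZ m := by
    rw [volRatio, ballZ, div_mul_cancel₀ _ (ballMass_pos m).ne']
  rw [hV] at hh
  set T := ∫ y in Ioo x 1, q0 m y
  set A := ((m : ℝ) + 2) * x + √((m : ℝ) + 2) with hA
  have hA0 : 0 ≤ A := add_nonneg (mul_nonneg (by positivity) hx.1.le) (Real.sqrt_nonneg _)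
  have hP := pow_pos (profile_pos hφ (sub_Ioo hsI)) m
  have h0 := pow_pos (profile_zero_pos hφ) m
  have hT : φ 0 ^ m * T ≤ φ s ^ m * ballZ m :=
    le_of_mul_le_mul_left (by linarith) hv
  rw [ballSlope, slopeZero, ← hs, div_mul_eq_mul_div, div_mul_eq_mul_div, div_mul_eq_mul_div,
    div_le_div_iff₀ hP h0]
  calc volRatio m φ * q0 m x * (1 - x ^ 2) * φ 0 ^ m
      = volRatio m φ * φ 0 ^ m * (q0 m x * (1 - x ^ 2)) := by ring
    _ ≤ volRatio m φ * φ 0 ^ m * (A * T) := mul_le_mul_of_nonneg_left ht (by positivity)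
    _ = volRatio m φ * A * (φ 0 ^ m * T) := by ring
    _ ≤ volRatio m φ * A * (φ s ^ m * ballZ m) := mul_le_mul_of_nonneg_left hT (by positivity)
    _ = _ := by ring

end Vale.Agent.P237.Uniform
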