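import Mathlib
import Vale.Agent.P237.Uniform.Hazard

/-!
A profile that passes the Fisher datum tested on the ball coordinate has almost the gain of the
ball: its mean logarithmic slope is bounded below by a multiple of `-1 / n ^ 2`.
-/

namespace Vale.Agent.P237.Uniform

open MeasureTheory Set Front Full Loss

variable {j : ℕ} {φ : ℝ → ℝ}

private lemma sub_Ioo : Ioo (0 : ℝ) 1 ⊆ Ioo (-1) 1 := Ioo_subset_Ioo_left (by norm_num)

private lemma continuousOn_max_zero {f : ℝ → ℝ} {s : Set ℝ} (h : ContinuousOn f s) :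
    ContinuousOn (fun x => max (f x) 0) s :=
  ((continuous_id'.max continuous_const).comp_continuousOn h :)

theorem log_le_sub_half_sq {z : ℝ} (hz : 0 < z) :
    Real.log z ≤ z - 1 - max (1 - z) 0 ^ 2 / 2 := by
  rcases le_total 1 z with h | h
  · rw [max_eq_right (by linarith)]
    linarith [Real.log_le_sub_one_of_pos hz]
  · rw [max_eq_left (by linarith)]
    set u := 1 - z with hu
    have hu0 : 0 ≤ u := by linarith
    have hu1 : |u| < 1 := abs_lt.2 ⟨by linarith, by linarith⟩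
    have hs := sum_le_hasSum (Finset.range 2) (fun i _ => by positivity)
      (Real.hasSum_pow_div_log_of_abs_lt_one hu1)
    rw [show 1 - u = z by rw [hu]; ring] at hs
    simp [Finset.sum_range_succ] at hs
    linarith

theorem exp_half_three_le {L : ℝ} (hL : L ≤ 0) : Real.exp L ≤ 1 + L + L ^ 2 / 2 := by
  have h := Real.quadratic_le_exp_of_nonneg (show 0 ≤ -L by linarith)
  have he : Real.exp L * Real.exp (-L) = 1 := by rw [← Real.exp_add, add_neg_cancel, Real.exp_zero]
  have hp := Real.exp_pos L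
  have h1 : Real.exp L * (1 - L + L ^ 2 / 2) ≤ 1 := he ▸
    mul_le_mul_of_nonneg_left (by linarith) hp.le
  have hpos : 0 < 1 - L + L ^ 2 / 2 := by nlinarith [sq_nonneg L]
  nlinarith [sq_nonneg (L ^ 2)]

theorem ballSlope_continuousOn {m : ℕ} (hφ : IsProfile m φ) :
    ContinuousOn (ballSlope m φ) (Ioo 0 1) := by
  obtain ⟨-, -, -, -, hmem, -, hd⟩ := ballMap_props hφ
  have hc : ContinuousOn (fun x => φ (ballMap m φ x)) (Ioo 0 1) :=
    ((profile_continuousOn hφ).mono sub_Ioo).comp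
      (fun x hx => (hd x hx).continuousAt.continuousWithinAt) hmem
  exact (continuousOn_const.mul (continuous_q0 m).continuousOn).div (hc.pow m)
    fun x hx => (pow_pos (profile_pos hφ (sub_Ioo (hmem x hx))) m).ne'

theorem ballSlope_integrable {m : ℕ} (hφ : IsProfile m φ) :
    IntegrableOn (ballSlope m φ) (Ioo 0 1) := by
  obtain ⟨-, hc, -, -, -, -, hd⟩ := ballMap_props hφ
  exact (intervalIntegral.integrableOn_deriv_of_nonneg hc hd
    fun x hx => (ballSlope_pos hφ hx).le).mono_set Ioo_subset_Ioc_self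

/-- The outward displacement is controlled by the excess slope. -/
theorem displacement_le {m : ℕ} (hφ : IsProfile m φ) (i : ℕ) :
    IntegrableOn (fun x => q0 i x * x * max (ballMap m φ x - x) 0) (Ioo 0 1) ∧
    IntegrableOn (fun x => q0 (i + 2) x * max (ballSlope m φ x - 1) 0) (Ioo 0 1) ∧
    ((i : ℝ) + 2) * (∫ x in Ioo (0 : ℝ) 1, q0 i x * x * max (ballMap m φ x - x) 0) ≤
      ∫ x in Ioo (0 : ℝ) 1, q0 (i + 2) x * max (ballSlope m φ x - 1) 0 := by
  obtain ⟨-, hc, h0, -, hmem, -, hd⟩ := ballMap_props hφ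
  set e : ℝ → ℝ := fun x => max (ballSlope m φ x - 1) 0 with he
  set W : ℝ → ℝ := fun x => ∫ u in (0 : ℝ)..x, e u with hW
  have hei : IntegrableOn e (Ioo 0 1) := by
    refine (ballSlope_integrable hφ).mono' ((continuousOn_max_zero ((ballSlope_continuousOn hφ).sub
      continuousOn_const)).aestronglyMeasurable measurableSet_Ioo) ?_
    filter_upwards [ae_restrict_mem measurableSet_Ioo] with x hx
    rw [Real.norm_eq_abs, abs_of_nonneg (le_max_right _ _)]
    exact max_le (by linarith) (ballSlope_pos hφ hx).le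
  have heI : IntervalIntegrable e volume 0 1 :=
    (intervalIntegrable_iff_integrableOn_Ioo_of_le zero_le_one).2 hei
  have hWc : ContinuousOn W (Icc 0 1) := by
    have h := intervalIntegral.continuousOn_primitive_interval' heI left_mem_uIcc
    rwa [uIcc_of_le zero_le_one] at h
  have hsub : ∀ x ∈ Ioo (0 : ℝ) 1, IntervalIntegrable e volume 0 x := fun x hx => by
    refine heI.mono_set ?_
    rw [uIcc_of_le hx.1.le, uIcc_of_le zero_le_one]
    exact Icc_subset_Icc le_rfl hx.2.le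
  have hWd : ∀ x ∈ Ioo (0 : ℝ) 1, HasDerivAt W (e x) x := fun x hx => by
    have hcx : ContinuousOn e (Ioo 0 1) :=
      continuousOn_max_zero ((ballSlope_continuousOn hφ).sub continuousOn_const)
    exact intervalIntegral.integral_hasDerivAt_right (hsub x hx)
      (hcx.stronglyMeasurableAtFilter isOpen_Ioo x hx) (hcx.continuousAt (isOpen_Ioo.mem_nhds hx))
  have hle : ∀ x ∈ Ioo (0 : ℝ) 1, max (ballMap m φ x - x) 0 ≤ W x := fun x hx => by
    have hW0 : 0 ≤ W x := intervalIntegral.integral_nonneg hx.1.le fun u _ => le_max_right _ _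
    refine max_le ?_ hW0
    have hai : IntervalIntegrable (ballSlope m φ) volume 0 x := by
      refine ((intervalIntegrable_iff_integrableOn_Ioo_of_le zero_le_one).2
        (ballSlope_integrable hφ)).mono_set ?_
      rw [uIcc_of_le hx.1.le, uIcc_of_le zero_le_one]
      exact Icc_subset_Icc le_rfl hx.2.le
    have h1 := intervalIntegral.integral_eq_sub_of_hasDerivAt_of_le hx.1.le
      (hc.mono (Icc_subset_Icc le_rfl hx.2.le)) (fun u hu => hd u ⟨hu.1, hu.2.trans hx.2⟩) hai
    rw [h0, sub_zero] at h1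
    have h2 := intervalIntegral.integral_sub hai (intervalIntegrable_const (c := (1 : ℝ)))
    rw [h1, intervalIntegral.integral_const, smul_eq_mul, mul_one, sub_zero] at h2
    rw [← h2]
    exact intervalIntegral.integral_mono_on hx.1.le (hai.sub intervalIntegrable_const) (hsub x hx)
      fun u _ => le_max_left _ _
  have i2 : IntegrableOn (fun x => q0 (i + 2) x * e x) (Ioo 0 1) := by
    refine hei.bdd_mul (c := 1) (continuous_q0 _).aestronglyMeasurable ?_
    filter_upwards [ae_restrict_mem measurableSet_Ioo] with x hx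
    rw [Real.norm_eq_abs, q0, abs_pow, abs_of_nonneg (Real.sqrt_nonneg _)]
    exact pow_le_one₀ (Real.sqrt_nonneg _) (Real.sqrt_le_one.2 (by nlinarith [sq_nonneg x]))
  have iW : IntegrableOn (fun x => q0 i x * x * W x) (Ioo 0 1) :=
    ((((continuous_q0 i).mul continuous_id).continuousOn.mul hWc).integrableOn_Icc).mono_set
      Ioo_subset_Icc_self
  have i1 : IntegrableOn (fun x => q0 i x * x * max (ballMap m φ x - x) 0) (Ioo 0 1) :=
    ((((continuous_q0 i).mul continuous_id).continuousOn.mul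
      (continuousOn_max_zero (hc.sub continuousOn_id))).integrableOn_Icc).mono_set
      Ioo_subset_Icc_self
  refine ⟨i1, i2, ?_⟩
  refine (mul_le_mul_of_nonneg_left (setIntegral_mono_on i1 iW measurableSet_Ioo fun x hx =>
    mul_le_mul_of_nonneg_left (hle x hx) (mul_nonneg (q0_pos hx).le hx.1.le)) (by positivity)).trans ?_
  have hd2 : ∀ x ∈ Ioo (0 : ℝ) 1, HasDerivAt (fun y => q0 (i + 2) y * W y)
      (q0 (i + 2) x * e x - ((i : ℝ) + 2) * (q0 i x * x * W x)) x := fun x hx => by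
    refine ((hasDerivAt_q0 hx i).mul (hWd x hx)).congr_deriv ?_
    ring
  have h := intervalIntegral.integral_eq_sub_of_hasDerivAt_of_le zero_le_one
    ((continuous_q0 _).continuousOn.mul hWc) hd2
    ((intervalIntegrable_iff_integrableOn_Ioo_of_le zero_le_one).2 (i2.sub (iW.const_mul _)))
  rw [intervalIntegral.integral_of_le zero_le_one, integral_Ioc_eq_integral_Ioo] at h
  rw [integral_sub i2 (iW.const_mul _), integral_const_mul] at h
  simp [q0, W] at h
  simp only [q0, he, hW] at h ⊢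
  linarith

/-- The pointwise lower bound for the logarithm of the slope. -/
theorem log_slope_ge {x s a c : ℝ} (hx : x ∈ Ioo (0 : ℝ) 1) (hs : s ∈ Ioo (0 : ℝ) 1) (ha : 0 < a)
    (hc : 0 < c) :
    -(9 / 8) * (x ^ 4 / (1 - x ^ 2) ^ 2) + (√(1 - x ^ 2) ^ 3 - c) -
        2 * x * max (s - x) 0 / (1 - x ^ 2) + (1 - √(1 - x ^ 2) * (1 - s * x) / (c * a)) +
        max (1 - √(1 - x ^ 2) * (1 - s * x) / (c * a)) 0 ^ 2 / 2 ≤ Real.log a := by
  set D := 1 - x ^ 2 with hD
  have hD0 : 0 < D := one_sub_sq_pos hx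
  have hD1 : D ≤ 1 := by nlinarith [sq_nonneg x]
  have hsd : 0 < √D := Real.sqrt_pos.2 hD0
  have hw : 0 < 1 - s * x := by nlinarith [hx.1, hx.2, hs.1, hs.2]
  set z := √D * (1 - s * x) / (c * a) with hz
  have hz0 : 0 < z := div_pos (mul_pos hsd hw) (mul_pos hc ha)
  have h1 := log_le_sub_half_sq hz0
  have e : Real.log z = Real.log D / 2 + Real.log (1 - s * x) - (Real.log c + Real.log a) := by
    rw [hz, Real.log_div (mul_pos hsd hw).ne' (mul_pos hc ha).ne',
      Real.log_mul hsd.ne' hw.ne', Real.log_mul hc.ne' ha.ne', Real.log_sqrt hD0.le]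
  set L := 3 / 2 * Real.log D with hL
  have hlogD : Real.log D ≤ 0 := Real.log_nonpos hD0.le hD1
  have hlogD' : -(x ^ 2 / D) ≤ Real.log D := by
    have := Real.one_sub_inv_le_log_of_pos hD0
    refine le_trans (le_of_eq ?_) this
    rw [hD] at hD0 ⊢
    field_simp
    ring
  have hexp : Real.exp L = √D ^ 3 := by
    rw [show L = Real.log (√D ^ 3) by rw [Real.log_pow, Real.log_sqrt hD0.le, hL]; push_cast; ring,
      Real.exp_log (pow_pos hsd 3)]
  have h2 := exp_half_three_le (L := L) (by linarith)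
  rw [hexp] at h2
  have h3 : L ^ 2 / 2 ≤ 9 / 8 * (x ^ 4 / D ^ 2) := by
    have hsq : Real.log D ^ 2 ≤ (x ^ 2 / D) ^ 2 := sq_le_sq' hlogD'
      (hlogD.trans (by positivity))
    rw [div_pow] at hsq
    rw [hL, show x ^ 4 = (x ^ 2) ^ 2 by ring]
    nlinarith
  have h4 := Real.log_le_sub_one_of_pos hc
  have h5 : -(2 * x * max (s - x) 0 / D) ≤ Real.log (1 - s * x) - Real.log D := by
    rw [← Real.log_div hw.ne' hD0.ne']
    refine le_trans ?_ (Real.one_sub_inv_le_log_of_pos (div_pos hw hD0))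
    rw [inv_div, one_sub_div hw.ne']
    rcases le_total s x with h | h
    · rw [max_eq_right (by linarith), mul_zero, zero_div, neg_zero]
      exact div_nonneg (by rw [hD]; nlinarith [hx.1]) hw.le
    · rw [max_eq_left (by linarith), ← neg_div, div_le_div_iff₀ hD0 hw]
      have h6 : x * (s - x) * D ≤ x * (s - x) * (2 * (1 - s * x)) :=
        mul_le_mul_of_nonneg_left (by rw [hD]; nlinarith [hs.2, hx.1, hx.2])
          (mul_nonneg hx.1.le (by linarith))
      rw [hD] at h6 ⊢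
      linarith
  linarith

/-- The excess slope against the deficit of the datum. -/
theorem excess_le {a T u p : ℝ} (ha : 0 < a) (hT : T ≤ 1 + u) (hu : 0 ≤ u)
    (hp : max (1 - T / a) 0 ≤ p) : max (a - 1) 0 ≤ a * p + u := by
  have hp0 : 0 ≤ p := (le_max_right _ _).trans hp
  refine max_le ?_ (by positivity)
  have := mul_le_mul_of_nonneg_left ((le_max_left _ _).trans hp) ha.le
  rw [mul_sub, mul_one, mul_div_cancel₀ _ ha.ne'] at this
  linarith

/-- The loss in the contact inequality. -/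
noncomputable def loss (j : ℕ) : ℝ := 227 / (((j : ℝ) + 4) * ((j : ℝ) + 2))

theorem loss_nonneg (j : ℕ) : 0 ≤ loss j := by unfold loss; positivity

private lemma half_ratio_lower (j : ℕ) :
    1 - 3 / (2 * ((j : ℝ) + 7)) ≤ ballZ (j + 7) / ballZ (j + 4) := by
  rw [le_div_iff₀ (ballZ_pos _)]
  have h := moment_two (j + 4)
  have h2 := ballZ_rec (j + 4)
  push_cast at h h2
  rw [show j + 4 + 2 = j + 6 from rfl] at h h2
  have hle : ballZ (j + 4) - 3 / 2 * (∫ x in Ioo (0 : ℝ) 1, x ^ 2 * q0 (j + 4) x) ≤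
      ballZ (j + 7) := by
    rw [ballZ, ballZ, ← integral_const_mul, ← integral_sub (integrable_q0 _)
      ((integrable_q0_mul _ (by fun_prop)).const_mul _)]
    refine setIntegral_mono_on ((integrable_q0 _).sub
      ((integrable_q0_mul _ (by fun_prop)).const_mul _)) (integrable_q0 _) measurableSet_Ioo
      fun x hx => ?_
    have hs2 := sqrt_sq_of_mem hx
    have hs0 := Real.sqrt_nonneg (1 - x ^ 2)
    have key : 1 - 3 / 2 * x ^ 2 ≤ √(1 - x ^ 2) ^ 3 := by
      nlinarith [mul_nonneg (sq_nonneg (√(1 - x ^ 2) - 1)) (add_nonneg hs0 (by norm_num : (0 : ℝ) ≤ 1 / 2))]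
    have := mul_le_mul_of_nonneg_left key (q0_pos (m := j + 4) hx).le
    simp only [q0, pow_add _ (j + 4) 3, show j + 7 = j + 4 + 3 from rfl] at this ⊢
    linarith
  refine le_trans (le_of_eq ?_) hle
  set I := ∫ x in Ioo (0 : ℝ) 1, x ^ 2 * q0 (j + 4) x
  field_simp
  have h9 : ((j : ℝ) + 7) * I = ballZ (j + 4) := by
    refine mul_left_cancel₀ (show (j : ℝ) + 6 ≠ 0 by positivity) ?_
    linear_combination ((j : ℝ) + 7) * h + h2
  linear_combination 3 * h9

/-- Large slope at the origin: no loss at all. -/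
theorem mean_log_slope_large (hφ : IsProfile (j + 5) φ) (h : 2 ≤ slopeZero (j + 5) φ) :
    0 ≤ ∫ x in Ioo (0 : ℝ) 1, q0 (j + 4) x * Real.log (ballSlope (j + 5) φ x) := by
  have hli := (log_gain (k := j + 4) (by omega) hφ).1
  have i2 := integrable_q0_mul (j + 2) (f := fun x => x ^ 2) (by fun_prop)
  have key : ∀ x ∈ Ioo (0 : ℝ) 1, Real.log 2 * q0 (j + 4) x -
      ((j : ℝ) + 5) / 2 * (x ^ 2 * q0 (j + 2) x) ≤
      q0 (j + 4) x * Real.log (ballSlope (j + 5) φ x) := fun x hx => by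
    have hD := one_sub_sq_pos hx
    have hq : 0 < q0 (j + 5) x := q0_pos hx
    have h1 : 2 * q0 (j + 5) x ≤ ballSlope (j + 5) φ x :=
      (mul_le_mul_of_nonneg_right h hq.le).trans (slopeZero_mul_q0_le hφ hx)
    have h2 := Real.log_le_log (by positivity) h1
    rw [Real.log_mul two_ne_zero hq.ne', q0, Real.log_pow, Real.log_sqrt hD.le] at h2
    push_cast at h2
    have h3 := Real.one_sub_inv_le_log_of_pos hD
    rw [show 1 - (1 - x ^ 2)⁻¹ = -(x ^ 2 / (1 - x ^ 2)) by field_simp; ring] at h3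
    have h4 := mul_le_mul_of_nonneg_left h3 (show (0 : ℝ) ≤ ((j : ℝ) + 5) / 2 by positivity)
    have h5 : Real.log 2 - ((j : ℝ) + 5) / 2 * (x ^ 2 / (1 - x ^ 2)) ≤
        Real.log (ballSlope (j + 5) φ x) := by linarith
    refine le_trans (le_of_eq ?_) (mul_le_mul_of_nonneg_left h5 (q0_pos (m := j + 4) hx).le)
    rw [q0_add_two hx (j + 2)]
    field_simp
  refine le_trans ?_ (setIntegral_mono_on (((integrable_q0 _).const_mul _).sub (i2.const_mul _))
    hli measurableSet_Ioo key)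
  simp only [Pi.sub_apply]
  rw [integral_sub ((integrable_q0 _).const_mul _) (i2.const_mul _), integral_const_mul,
    integral_const_mul]
  have h2 := moment_two (j + 2)
  push_cast at h2
  rw [show j + 2 + 2 = j + 4 from rfl] at h2
  set I := ∫ x in Ioo (0 : ℝ) 1, x ^ 2 * q0 (j + 2) x
  change 0 ≤ Real.log 2 * ballZ (j + 4) - _
  rw [← h2]
  have hI : 0 ≤ I := setIntegral_nonneg measurableSet_Ioo fun x hx =>
    mul_nonneg (sq_nonneg x) (q0_pos hx).le
  have hl := Real.log_two_gt_d9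
  nlinarith [mul_nonneg hI (show (0 : ℝ) ≤ Real.log 2 * ((j : ℝ) + 4) - ((j : ℝ) + 5) / 2 by
    nlinarith [Nat.cast_nonneg (α := ℝ) j])]

/-- Small slope at the origin: bounded second moment of the slope. -/
theorem slope_sq_le (hφ : IsProfile (j + 5) φ) (h : slopeZero (j + 5) φ ≤ 2) :
    IntegrableOn (fun x => q0 (j + 4) x * ballSlope (j + 5) φ x ^ 2) (Ioo 0 1) ∧
    (∫ x in Ioo (0 : ℝ) 1, q0 (j + 4) x * ballSlope (j + 5) φ x ^ 2) ≤
      8 * Real.pi * ((j : ℝ) + 5) * ((j : ℝ) + 7) / (((j : ℝ) + 2) * ((j : ℝ) + 4)) *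
        ballZ (j + 4) := by
  set Z := ballZ (j + 5) with hZ
  have hZ0 : 0 < Z := ballZ_pos _
  have i0 := integrable_q0 j
  have i2 := integrable_q0_mul j (f := fun x => x ^ 2) (by fun_prop)
  set U : ℝ → ℝ := fun x => 8 * Z ^ 2 * (((j : ℝ) + 7) ^ 2 * (x ^ 2 * q0 j x) +
    ((j : ℝ) + 7) * q0 j x) with hU
  have key : ∀ x ∈ Ioo (0 : ℝ) 1, q0 (j + 4) x * ballSlope (j + 5) φ x ^ 2 ≤ U x := fun x hx => by
    have h1 := ballSlope_le hφ hx
    push_cast at h1
    rw [show (j : ℝ) + 5 + 2 = (j : ℝ) + 7 by ring] at h1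
    set r := √((j : ℝ) + 7) with hr
    have hr2 : r ^ 2 = (j : ℝ) + 7 := Real.sq_sqrt (by positivity)
    have hA : 0 ≤ ((j : ℝ) + 7) * x + r :=
      add_nonneg (mul_nonneg (by positivity) hx.1.le) (Real.sqrt_nonneg _)
    have h2 : ballSlope (j + 5) φ x * (1 - x ^ 2) ≤ 2 * Z * (((j : ℝ) + 7) * x + r) :=
      h1.trans (mul_le_mul_of_nonneg_right (mul_le_mul_of_nonneg_right h hZ0.le) hA)
    have h3 := pow_le_pow_left₀
      (mul_nonneg (ballSlope_pos hφ hx).le (one_sub_sq_pos hx).le) h2 2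
    rw [q0_add_four hx j, hU]
    have h4 : (((j : ℝ) + 7) * x + r) ^ 2 ≤ 2 * (((j : ℝ) + 7) ^ 2 * x ^ 2 + ((j : ℝ) + 7)) := by
      nlinarith [sq_nonneg (((j : ℝ) + 7) * x - r)]
    have h5 : (ballSlope (j + 5) φ x * (1 - x ^ 2)) ^ 2 ≤
        8 * Z ^ 2 * (((j : ℝ) + 7) ^ 2 * x ^ 2 + ((j : ℝ) + 7)) := by
      nlinarith [mul_le_mul_of_nonneg_left h4 (show (0 : ℝ) ≤ 4 * Z ^ 2 by positivity)]
    have := mul_le_mul_of_nonneg_left h5 (q0_pos (m := j) hx).le
    linarith
  have hUi : IntegrableOn U (Ioo 0 1) := ((i2.const_mul _).add (i0.const_mul _)).const_mul _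
  have hi : IntegrableOn (fun x => q0 (j + 4) x * ballSlope (j + 5) φ x ^ 2) (Ioo 0 1) := by
    refine hUi.mono' (((continuous_q0 _).continuousOn.mul
      ((ballSlope_continuousOn hφ).pow 2)).aestronglyMeasurable measurableSet_Ioo) ?_
    filter_upwards [ae_restrict_mem measurableSet_Ioo] with x hx
    rw [Real.norm_eq_abs, abs_of_nonneg (mul_nonneg (q0_pos hx).le (sq_nonneg _))]
    exact key x hx
  refine ⟨hi, (setIntegral_mono_on hi hUi measurableSet_Ioo key).trans ?_⟩
  rw [hU, integral_const_mul, integral_add (i2.const_mul _) (i0.const_mul _), integral_const_mul,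
    integral_const_mul]
  have e2 := moment_two j
  have e3 := ballZ_rec j
  have e4 := ballZ_rec (j + 2)
  push_cast at e4
  rw [show j + 2 + 2 = j + 4 from rfl] at e4
  change 8 * Z ^ 2 * (((j : ℝ) + 7) ^ 2 * _ + ((j : ℝ) + 7) * ballZ j) ≤ _
  set I := ∫ x in Ioo (0 : ℝ) 1, x ^ 2 * q0 j x
  have eI : I = ((j : ℝ) + 5) / (((j : ℝ) + 4) * ((j : ℝ) + 2)) * ballZ (j + 4) := by
    field_simp
    linear_combination ((j : ℝ) + 4) * e2 - e4
  have e0 : ballZ j =
      ((j : ℝ) + 3) * ((j : ℝ) + 5) / (((j : ℝ) + 2) * ((j : ℝ) + 4)) * ballZ (j + 4) := by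
    field_simp
    linear_combination (-((j : ℝ) + 4)) * e3 - ((j : ℝ) + 3) * e4
  rw [eI, e0]
  have hW := ballZ_sq_le (j + 5) (by omega)
  push_cast at hW
  have h4 := ballZ_pos (j + 4)
  refine le_trans (mul_le_mul_of_nonneg_right
    (mul_le_mul_of_nonneg_left hW (by norm_num : (0 : ℝ) ≤ 8)) (by positivity)) (le_of_eq ?_)
  field_simp
  ring

/-- The arithmetic of the loss. -/
theorem final_bound (j : ℕ) {Z M P X B Tc u R W : ℝ} (hu : u = 3 / (2 * (j : ℝ) + 11))
    (hZ : 0 < Z) (hm4 : ((j : ℝ) + 2) * ((j : ℝ) + 4) * M = 3 * Z) (hT : Tc ≤ Z) (hR : R = 0)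
    (hdis : ((j : ℝ) + 2 + 2) * X ≤ ((j : ℝ) + 4) / 2 * P + 1 / ((j : ℝ) + 4) * B + u * Z)
    (hB : B ≤ 8 * Real.pi * ((j : ℝ) + 5) * ((j : ℝ) + 7) / (((j : ℝ) + 2) * ((j : ℝ) + 4)) * Z)
    (hmain : -(9 / 8) * M + R + Z - Tc + P - 2 * X ≤ W) : -loss j * Z ≤ W := by
  have hJ : (0 : ℝ) ≤ j := Nat.cast_nonneg j
  set p := (j : ℝ) + 2 with hp
  set k := (j : ℝ) + 4 with hk
  have hp2 : 2 ≤ p := by linarith
  have hk4 : 4 ≤ k := by linarith
  set e := 1 / (k * p) with he
  have he0 : 0 < e := by positivity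
  have hM : M = 3 * e * Z := by
    rw [he]; field_simp; linear_combination hm4
  have hu' : 2 * u / k ≤ 3 * e := by
    rw [hu, he, ← mul_div_assoc, div_div, mul_one_div, div_le_div_iff₀ (by positivity) (by positivity)]
    nlinarith
  have hB' : 2 / k ^ 2 * B ≤ 441 / 2 * e * Z := by
    refine (mul_le_mul_of_nonneg_left hB (by positivity)).trans ?_
    rw [← mul_assoc]
    refine mul_le_mul_of_nonneg_right ?_ hZ.le
    have hpi : Real.pi ≤ 3.15 := Real.pi_lt_d2.le
    have h1 : 8 * ((j : ℝ) + 5) * ((j : ℝ) + 7) ≤ 35 / 2 * k ^ 2 := by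
      rw [hk]; nlinarith
    have h2 : Real.pi * (8 * ((j : ℝ) + 5) * ((j : ℝ) + 7)) ≤ 3.15 * (35 / 2 * k ^ 2) :=
      mul_le_mul hpi h1 (by positivity) (by norm_num)
    rw [he, mul_one_div, div_mul_div_comm, div_le_div_iff₀ (by positivity) (by positivity)]
    nlinarith [mul_le_mul_of_nonneg_left h2 (show (0 : ℝ) ≤ 2 * k * p by positivity),
      mul_pos (pow_pos (show 0 < k by linarith) 3) (show 0 < p by linarith)]
  have hX : 2 * X ≤ P + 2 / k ^ 2 * B + 2 * u / k * Z := by
    refine le_of_mul_le_mul_left ?_ (show 0 < k by linarith)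
    rw [show k * (P + 2 / k ^ 2 * B + 2 * u / k * Z) =
      2 * (k / 2 * P + 1 / k * B + u * Z) by field_simp]
    rw [show p + 2 = k by rw [hp, hk]; ring] at hdis
    linarith
  have h3 : 2 * u / k * Z ≤ 3 * e * Z := mul_le_mul_of_nonneg_right hu' hZ.le
  have hl : loss j = 227 * e := by rw [loss, he, ← hk, ← hp]; ring
  rw [hl, hR] at *
  have he1 : 0 ≤ e * Z := (mul_pos he0 hZ).le
  linarith

/-- The contact inequality with a loss: a profile passing the tested Fisher datum has mean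
logarithmic slope at least `-loss j`. -/
theorem mean_log_slope_ge (hφ : IsProfile (j + 5) φ)
    (hi : IntegrableOn (fun x => q0 (j + 5) x * ((1 - ballMap (j + 5) φ x * x) /
      ballSlope (j + 5) φ x)) (Ioo 0 1))
    (hT : (∫ x in Ioo (0 : ℝ) 1, q0 (j + 5) x * ((1 - ballMap (j + 5) φ x * x) /
      ballSlope (j + 5) φ x)) ≤ ballZ (j + 7)) :
    -loss j * ballZ (j + 4) ≤
      ∫ x in Ioo (0 : ℝ) 1, q0 (j + 4) x * Real.log (ballSlope (j + 5) φ x) := by
  rcases le_total 2 (slopeZero (j + 5) φ) with hbig | hsmall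
  · exact le_trans (by nlinarith [loss_nonneg j, ballZ_pos (j + 4)])
      (mean_log_slope_large hφ hbig)
  obtain ⟨hB, hBle⟩ := slope_sq_le hφ hsmall
  obtain ⟨-, hSc, -, -, hmem, -, -⟩ := ballMap_props hφ
  obtain ⟨id1, id2, hdis⟩ := displacement_le hφ (j + 2) (φ := φ)
  have hli := (log_gain (k := j + 4) (by omega) hφ).1
  set a := ballSlope (j + 5) φ with ha
  set S := ballMap (j + 5) φ with hS
  set Z := ballZ (j + 4) with hZ
  set c := ballZ (j + 7) / Z with hc
  have hZ0 : 0 < Z := ballZ_pos _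
  have hc0 : 0 < c := div_pos (ballZ_pos _) hZ0
  set p : ℝ → ℝ := fun x => max (1 - √(1 - x ^ 2) * (1 - S x * x) / (c * a x)) 0 with hp
  have hpc : ContinuousOn p (Ioo 0 1) := by
    refine continuousOn_max_zero (continuousOn_const.sub (ContinuousOn.div ?_
      (continuousOn_const.mul (ballSlope_continuousOn hφ))
      fun x hx => (mul_pos hc0 (ballSlope_pos hφ hx)).ne'))
    exact (by fun_prop : Continuous fun x : ℝ => √(1 - x ^ 2)).continuousOn.mul
      (continuousOn_const.sub ((hSc.mono Ioo_subset_Icc_self).mul continuousOn_id))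
  have hp1 : ∀ x ∈ Ioo (0 : ℝ) 1, 0 ≤ p x ∧ p x ≤ 1 := fun x hx => by
    refine ⟨le_max_right _ _, max_le (sub_le_self _ (div_nonneg (mul_nonneg (Real.sqrt_nonneg _)
      ?_) (mul_pos hc0 (ballSlope_pos hφ hx)).le)) zero_le_one⟩
    nlinarith [(hmem x hx).1, (hmem x hx).2, hx.1, hx.2]
  have ip : IntegrableOn (fun x => q0 (j + 4) x * (p x ^ 2 / 2)) (Ioo 0 1) := by
    refine ((integrable_q0 (j + 4))).mono' (((continuous_q0 _).continuousOn.mul
      ((hpc.pow 2).div_const 2)).aestronglyMeasurable measurableSet_Ioo) ?_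
    filter_upwards [ae_restrict_mem measurableSet_Ioo] with x hx
    obtain ⟨h0, h1⟩ := hp1 x hx
    rw [Real.norm_eq_abs, abs_of_nonneg (mul_nonneg (q0_pos hx).le (by positivity))]
    exact mul_le_of_le_one_right (q0_pos hx).le (by nlinarith)
  have i4 := integrable_q0_mul j (f := fun x => x ^ 4) (by fun_prop)
  -- the pointwise bound
  set u : ℝ := 3 / (2 * (j : ℝ) + 11) with hu
  have h1c : 1 / c ≤ 1 + u := by
    have hlow := half_ratio_lower j
    rw [← hc] at hlow
    have hpos : 0 < 1 - 3 / (2 * ((j : ℝ) + 7)) := by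
      rw [sub_pos, div_lt_one (by positivity)]; linarith [Nat.cast_nonneg (α := ℝ) j]
    refine (one_div_le_one_div_of_le hpos hlow).trans (le_of_eq ?_)
    rw [hu, one_div, show 1 - 3 / (2 * ((j : ℝ) + 7)) = (2 * (j : ℝ) + 11) / (2 * (j : ℝ) + 14) by
      field_simp; ring, inv_div]
    field_simp
    ring
  have key : ∀ x ∈ Ioo (0 : ℝ) 1,
      -(9 / 8) * (x ^ 4 * q0 j x) + (q0 (j + 7) x - c * q0 (j + 4) x) + q0 (j + 4) x -
          (1 / c) * (q0 (j + 5) x * ((1 - S x * x) / a x)) + q0 (j + 4) x * (p x ^ 2 / 2) -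
          2 * (q0 (j + 2) x * x * max (S x - x) 0) ≤ q0 (j + 4) x * Real.log (a x) := fun x hx => by
    have hq := q0_pos (m := j + 4) hx
    refine le_trans (le_of_eq ?_) (mul_le_mul_of_nonneg_left
      (log_slope_ge hx (hmem x hx) (ballSlope_pos hφ hx) hc0) hq.le)
    have e5 : q0 (j + 5) x = q0 (j + 4) x * √(1 - x ^ 2) := by
      simp only [q0, show j + 5 = j + 4 + 1 from rfl, pow_succ]
    have e7 : q0 (j + 7) x = q0 (j + 4) x * √(1 - x ^ 2) ^ 3 := by
      simp only [q0, show j + 7 = j + 4 + 3 from rfl, pow_add]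
    have hD := one_sub_sq_pos hx
    have e4 : x ^ 4 * q0 j x = q0 (j + 4) x * (x ^ 4 / (1 - x ^ 2) ^ 2) := by
      rw [q0_add_four hx j]; field_simp
    have e2 : q0 (j + 2) x = q0 (j + 4) x / (1 - x ^ 2) := by
      rw [q0_add_two hx (j + 2)]; field_simp
    have hap := ballSlope_pos hφ hx
    rw [e5, e7, e4, e2]
    simp only [hp]
    field_simp
    ring
  have iu : IntegrableOn (fun x => q0 (j + 7) x - c * q0 (j + 4) x) (Ioo 0 1) :=
    (integrable_q0 _).sub ((integrable_q0 _).const_mul _)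
  have k1 : IntegrableOn (fun x => -(9 / 8) * (x ^ 4 * q0 j x) +
      (q0 (j + 7) x - c * q0 (j + 4) x)) (Ioo 0 1) := (i4.const_mul _).add iu
  have k2 : IntegrableOn (fun x => -(9 / 8) * (x ^ 4 * q0 j x) +
      (q0 (j + 7) x - c * q0 (j + 4) x) + q0 (j + 4) x) (Ioo 0 1) := k1.add (integrable_q0 _)
  have k3 : IntegrableOn (fun x => -(9 / 8) * (x ^ 4 * q0 j x) +
      (q0 (j + 7) x - c * q0 (j + 4) x) + q0 (j + 4) x -
      1 / c * (q0 (j + 5) x * ((1 - S x * x) / a x))) (Ioo 0 1) := k2.sub (hi.const_mul _)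
  have k4 : IntegrableOn (fun x => -(9 / 8) * (x ^ 4 * q0 j x) +
      (q0 (j + 7) x - c * q0 (j + 4) x) + q0 (j + 4) x -
      1 / c * (q0 (j + 5) x * ((1 - S x * x) / a x)) + q0 (j + 4) x * (p x ^ 2 / 2)) (Ioo 0 1) :=
    k3.add ip
  have iall : IntegrableOn (fun x => -(9 / 8) * (x ^ 4 * q0 j x) +
      (q0 (j + 7) x - c * q0 (j + 4) x) + q0 (j + 4) x -
      1 / c * (q0 (j + 5) x * ((1 - S x * x) / a x)) + q0 (j + 4) x * (p x ^ 2 / 2) -
      2 * (q0 (j + 2) x * x * max (S x - x) 0)) (Ioo 0 1) := k4.sub (id1.const_mul 2)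
  have hmain := setIntegral_mono_on iall hli measurableSet_Ioo key
  rw [integral_sub k4 (id1.const_mul 2), integral_add k3 ip, integral_sub k2 (hi.const_mul (1 / c)),
    integral_add k1 (integrable_q0 (j + 4)), integral_add (i4.const_mul (-(9 / 8))) iu,
    integral_sub (integrable_q0 _) ((integrable_q0 _).const_mul _),
    integral_const_mul, integral_const_mul, integral_const_mul, integral_const_mul] at hmain
  -- the excess slope is absorbed
  have hex : (∫ x in Ioo (0 : ℝ) 1, q0 (j + 4) x * max (a x - 1) 0) ≤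
      ((j : ℝ) + 4) / 2 * (∫ x in Ioo (0 : ℝ) 1, q0 (j + 4) x * (p x ^ 2 / 2)) +
        1 / ((j : ℝ) + 4) * (∫ x in Ioo (0 : ℝ) 1, q0 (j + 4) x * a x ^ 2) + u * Z := by
    rw [show j + 2 + 2 = j + 4 from rfl] at id2
    refine (setIntegral_mono_on id2 (((ip.const_mul (((j : ℝ) + 4) / 2)).add
      (hB.const_mul (1 / ((j : ℝ) + 4)))).add ((integrable_q0 (j + 4)).const_mul u)) measurableSet_Ioo
      fun x hx => ?_).trans (le_of_eq ?_)
    · have hap := ballSlope_pos hφ hx
      have hq := q0_pos (m := j + 4) hx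
      have hT1 : √(1 - x ^ 2) * (1 - S x * x) / c ≤ 1 + u := by
        refine le_trans ?_ h1c
        refine div_le_div_of_nonneg_right ?_ hc0.le
        exact mul_le_one₀ (Real.sqrt_le_one.2 (by nlinarith [sq_nonneg x]))
          (by nlinarith [(hmem x hx).1, (hmem x hx).2, hx.1, hx.2])
          (by nlinarith [(hmem x hx).1, hx.1])
      have h := excess_le hap hT1 (by positivity) (p := p x)
        (le_of_eq (by simp only [hp, ← ha, div_div]))
      have hk : (0 : ℝ) < (j : ℝ) + 4 := by positivity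
      have h2 : a x * p x ≤ ((j : ℝ) + 4) / 2 * (p x ^ 2 / 2) + 1 / ((j : ℝ) + 4) * a x ^ 2 := by
        rw [← sub_nonneg]
        refine le_of_le_of_eq (mul_nonneg (inv_nonneg.2 hk.le)
          (sq_nonneg (((j : ℝ) + 4) * p x / 2 - a x))) ?_
        field_simp
        ring
      have := mul_le_mul_of_nonneg_left (h.trans (add_le_add h2 le_rfl)) hq.le
      simp only [Pi.add_apply]
      linarith
    · simp only [Pi.add_apply]
      have k5 : IntegrableOn (fun x => ((j : ℝ) + 4) / 2 * (q0 (j + 4) x * (p x ^ 2 / 2)) +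
          1 / ((j : ℝ) + 4) * (q0 (j + 4) x * a x ^ 2)) (Ioo 0 1) :=
        (ip.const_mul _).add (hB.const_mul _)
      rw [integral_add k5 ((integrable_q0 (j + 4)).const_mul u),
        integral_add (ip.const_mul _) (hB.const_mul _), integral_const_mul, integral_const_mul,
        integral_const_mul]
      rfl
  push_cast at hdis
  rw [show j + 2 + 2 = j + 4 from rfl] at hdis
  have hm4 := moment_four j
  set P := ∫ x in Ioo (0 : ℝ) 1, q0 (j + 4) x * (p x ^ 2 / 2)
  set B := ∫ x in Ioo (0 : ℝ) 1, q0 (j + 4) x * a x ^ 2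
  set X := ∫ x in Ioo (0 : ℝ) 1, q0 (j + 2) x * x * max (S x - x) 0
  set M := ∫ x in Ioo (0 : ℝ) 1, x ^ 4 * q0 j x
  set T := ∫ x in Ioo (0 : ℝ) 1, q0 (j + 5) x * ((1 - S x * x) / a x)
  change -(9 / 8) * M + (ballZ (j + 7) - c * Z) + Z - 1 / c * T + P - 2 * X ≤ _ at hmain
  have hcZ : c * Z = ballZ (j + 7) := div_mul_cancel₀ _ hZ0.ne'
  have hTc : 1 / c * T ≤ Z := by
    rw [one_div, inv_mul_le_iff₀ hc0, hcZ]; exact hT
  exact final_bound j hu hZ0 hm4 hTc (by rw [hcZ, sub_self]) (hdis.trans hex) hBle hmain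

end Vale.Agent.P237.Uniform
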