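import Mathlib
import Vale.Agent.P237.Uniform.Gain
import Vale.Agent.P237.Front.Test
import Vale.Agent.P237.Full.Loss.Profile
import Vale.Agent.P237.Full.Base

/-!
In every dimension `n ≥ 6` some contact direction has the contact bound of the ball up to the
factor `exp (-227 / ((n - 2) (n - 4)))`.
-/

namespace Vale.Agent.P237.Uniform

open MeasureTheory Set Front Full Loss
open scoped RealInnerProductSpace

/-- Slices of the ball. -/
theorem kappa_succ (m : ℕ) : kappa (m + 1) = 2 * kappa m * ballZ m := by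
  induction m using Nat.twoStepInduction with
  | zero =>
    rw [kappa_one]; simp [kappa, ballZ, q0]
  | one =>
    have hh : ballZ 1 = Real.pi / 4 := by
      have hc : Continuous fun t : ℝ => √(1 - t ^ 2) := by fun_prop
      have h := intervalIntegral.integral_comp_neg (fun t : ℝ => √(1 - t ^ 2)) (a := -1) (b := 0)
      have hadd := intervalIntegral.integral_add_adjacent_intervals
        (hc.intervalIntegrable (μ := volume) (-1) 0) (hc.intervalIntegrable (μ := volume) 0 1)
      simp only [neg_sq, neg_zero, neg_neg] at h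
      rw [h, integral_sqrt_one_sub_sq] at hadd
      rw [ballZ, ← integral_Ioc_eq_integral_Ioo, ← intervalIntegral.integral_of_le zero_le_one]
      simp only [q0, pow_one]
      linarith
    rw [hh, show (1 : ℕ) + 1 = 0 + 2 from rfl, kappa_add_two, kappa_one]
    simp [kappa]
    ring
  | more k h1 h2 =>
    have h3 := ballZ_rec k
    rw [show k + 2 + 1 = (k + 1) + 2 from rfl, kappa_add_two (k + 1), kappa_add_two k, h1]
    push_cast
    field_simp
    linear_combination -kappa k * h3

/-- An even integrand on the symmetric interval. -/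
theorem integral_Icc_even {f : ℝ → ℝ} (hf : IntegrableOn f (Ioo 0 1)) (he : ∀ t, f (-t) = f t) :
    (∫ t in Icc (-1 : ℝ) 1, f t) = 2 * ∫ t in Ioo (0 : ℝ) 1, f t := by
  have hI : IntervalIntegrable f volume 0 1 :=
    (intervalIntegrable_iff_integrableOn_Ioo_of_le zero_le_one).2 hf
  have hI' : IntervalIntegrable f volume (-1) 0 := by
    simpa [he] using (hI.comp_sub_left 0).symm
  have hadd := intervalIntegral.integral_add_adjacent_intervals hI' hI
  have hneg := intervalIntegral.integral_comp_neg f (a := 0) (b := 1)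
  simp only [he, neg_zero] at hneg
  rw [integral_Icc_eq_integral_Ioc, ← intervalIntegral.integral_of_le (by norm_num),
    ← integral_Ioc_eq_integral_Ioo, ← intervalIntegral.integral_of_le zero_le_one]
  linarith

/-- The contact lemma: some contact has almost the gain of the ball. -/
theorem exists_gain (j : ℕ) {N : ℕ} {K : Set (EuclideanSpace ℝ (Fin (j + 6)))} {c : Fin N → ℝ}
    {u : Fin N → EuclideanSpace ℝ (Fin (j + 6))} (φ : Fin N → ℝ → ℝ) (h : InJohn K c u)
    (hφ : ∀ i, IsProfile (j + 5) (φ i))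
    (hs : ∀ i t, sect K (u i) t = if |t| ≤ 1 then kappa (j + 5) * φ i t ^ (j + 5) else 0) :
    ∃ i, -loss j * ballZ (j + 4) ≤
      ∫ x in Ioo (0 : ℝ) 1, q0 (j + 4) x * Real.log (ballSlope (j + 5) (φ i) x) := by
  obtain ⟨hint, hsum⟩ := fisher_test_datum (m := j + 5) h φ hφ hs (fun _ p => p.1)
    (fun _ => contDiff_fst) (fun _ p => rfl)
  have hcn := h.2.2.2.2.2.1
  set Z := ∫ x in Ioo (0 : ℝ) 1, q0 (j + 5) x with hZ
  have hZ0 : 0 < Z := ballMass_pos _
  set T : Fin N → ℝ := fun i => ∫ x in Ioo (0 : ℝ) 1, q0 (j + 5) x * testFun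
    (((j + 5 : ℕ) : ℝ) + 1) (fun p : ℝ × ℝ => p.1) x (ballMap (j + 5) (φ i) x)
      (ballSlope (j + 5) (φ i) x) with hT
  obtain ⟨i, hi⟩ : ∃ i, T i ≤ Z := by
    by_contra hno
    push Not at hno
    obtain ⟨l, -, hl⟩ := Finset.exists_ne_zero_of_sum_ne_zero (s := Finset.univ) (f := c)
      (by rw [hcn]; positivity)
    have hl' : 0 < c l := lt_of_le_of_ne (h.2.2.2.1 l) (Ne.symm hl)
    have hlt : ∑ i, c i * 1 < ∑ i, c i * (T i / Z) :=
      Finset.sum_lt_sum (fun i _ => mul_le_mul_of_nonneg_left ((one_le_div hZ0).2 (hno i).le)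
        (h.2.2.2.1 i))
        ⟨l, Finset.mem_univ l, mul_lt_mul_of_pos_left ((one_lt_div hZ0).2 (hno l)) hl'⟩
    simp only [mul_one, hcn] at hlt
    push_cast at hsum hlt
    simp only [hT] at hlt
    push_cast at hlt
    linarith
  have hg : ∀ x s a : ℝ, testFun (((j + 5 : ℕ) : ℝ) + 1) (fun p : ℝ × ℝ => p.1) x s a =
      2 * ((1 - s * x) / a) - (((j + 5 : ℕ) : ℝ) + 1) * x ^ 2 := fun x s a => by
    simp [testFun, gx, gs, fderiv_fst]
    ring
  have ix := integrable_q0_mul (j + 5) (f := fun x => x ^ 2) (by fun_prop)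
  set n : ℝ := ((j + 5 : ℕ) : ℝ) + 1 with hn
  set F : ℝ → ℝ := fun x => q0 (j + 5) x * ((1 - ballMap (j + 5) (φ i) x * x) /
    ballSlope (j + 5) (φ i) x) with hF
  have eF : ∀ x, F x = (q0 (j + 5) x * testFun n (fun p : ℝ × ℝ => p.1) x
      (ballMap (j + 5) (φ i) x) (ballSlope (j + 5) (φ i) x) + n * (x ^ 2 * q0 (j + 5) x)) / 2 :=
    fun x => by simp only [hF, hg]; ring
  have iF : IntegrableOn F (Ioo 0 1) := by
    rw [show F = _ from funext eF]
    exact ((hint i).add (ix.const_mul n)).div_const 2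
  refine ⟨i, mean_log_slope_ge (hφ i) iF ?_⟩
  change ∫ x in Ioo (0 : ℝ) 1, F x ≤ _
  simp only [eF]
  rw [integral_div, integral_add (hint i) (ix.const_mul n), integral_const_mul]
  have hm := moment_two (j + 5)
  have hr := ballZ_rec (j + 5)
  push_cast at hm hr
  rw [show j + 5 + 2 = j + 7 from rfl] at hm hr
  have hZb : Z = ballZ (j + 5) := rfl
  change (T i + _) / 2 ≤ _
  set I := ∫ x in Ioo (0 : ℝ) 1, x ^ 2 * q0 (j + 5) x
  have hnI : n * I + ballZ (j + 5) = 2 * ballZ (j + 7) := by
    rw [hn]; push_cast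
    refine mul_left_cancel₀ (show (j : ℝ) + 7 ≠ 0 by positivity) ?_
    linear_combination ((j : ℝ) + 6) * hm - hr
  linarith

/-- The contact bound in dimension `j + 6` up to the factor `exp (-loss j)`. -/
theorem contactBoundC_loss (j : ℕ) : ContactBoundC (j + 6) (Real.exp (-loss j)) := by
  refine contactBoundC_of_profiles (m := j + 5) (by omega) fun N K c u φ h hφ hs => ?_
  obtain ⟨i, hi⟩ := exists_gain j φ h hφ hs
  refine ⟨i, ?_⟩
  obtain ⟨-, hgain⟩ := log_gain (k := j + 4) (by omega) (hφ i)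
  have hZ := ballZ_pos (j + 4)
  set v := volRatio (j + 5) (φ i) with hv
  have hv0 : 0 < v := volRatio_pos (hφ i)
  set P := ∫ t in Ioo (0 : ℝ) 1, φ i t ^ (j + 4) with hP
  have hG : -loss j ≤ ((j : ℝ) + 5) * Real.log (P / ballZ (j + 4)) -
      ((j : ℝ) + 4) * Real.log v := by
    have := hi.trans hgain
    rw [mul_comm (-loss j)] at this
    push_cast at this
    rw [show (j : ℝ) + 4 + 1 = (j : ℝ) + 5 by ring] at this
    exact le_of_mul_le_mul_left this hZ
  have hP0 : 0 < P := by
    refine hZ.trans_le (setIntegral_mono_on (integrable_q0 _)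
      ((intervalIntegrable_iff_integrableOn_Ioo_of_le zero_le_one).1
        (intervalIntegrable_pow (hφ i) _)) measurableSet_Ioo fun t ht => ?_)
    exact pow_le_pow_left₀ (Real.sqrt_nonneg _)
      ((hφ i).above t ⟨by linarith [ht.1], ht.2.le⟩) _
  have hint' : ∀ k, IntegrableOn (fun t => φ i t ^ k) (Ioo 0 1) := fun k =>
    (intervalIntegrable_iff_integrableOn_Ioo_of_le zero_le_one).1 (intervalIntegrable_pow (hφ i) k)
  have hev : ∀ k t, φ i (-t) ^ k = φ i t ^ k := fun k t => by rw [(hφ i).even]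
  have hVv : (volume K).toReal / kappa (j + 6) = v := by
    have h2 := integral_sect_mul h.1 (h.2.2.2.2.1 i) (g := fun _ => (1 : ℝ)) continuous_const
    simp only [one_mul, hs, setIntegral_const, measureReal_def, smul_eq_mul, mul_one] at h2
    have e : (∫ t, if |t| ≤ 1 then kappa (j + 5) * φ i t ^ (j + 5) else 0) =
        kappa (j + 5) * ∫ t in Icc (-1 : ℝ) 1, φ i t ^ (j + 5) := by
      rw [← integral_const_mul, ← integral_indicator measurableSet_Icc]
      refine integral_congr_ae (Filter.Eventually.of_forall fun t => ?_)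
      simp only [indicator, mem_Icc, ← abs_le]
    rw [e, integral_Icc_even (hint' _) (hev _)] at h2
    rw [← h2, kappa_succ (j + 5), hv, volRatio, ballZ]
    have := kappa_pos (j + 5)
    field_simp
  have hPI : (∫ t in Icc (-1 : ℝ) 1, φ i t ^ (j + 5 - 1)) = 2 * P :=
    integral_Icc_even (hint' _) (hev _)
  change Real.exp (-loss j) * (kappa (j + 5) / kappa (j + 4)) ^ (j + 5) *
    ((volume K).toReal / kappa (j + 6)) ^ (j + 4) ≤ _
  rw [hPI, hVv,
    show kappa (j + 5) / kappa (j + 4) = 2 * ballZ (j + 4) by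
      rw [kappa_succ (j + 4)]; have := kappa_pos (j + 4); field_simp]
  have key : Real.exp (-loss j) * v ^ (j + 4) ≤ (P / ballZ (j + 4)) ^ (j + 5) := by
    rw [← Real.exp_log (pow_pos hv0 (j + 4)), ← Real.exp_add,
      ← Real.exp_log (pow_pos (div_pos hP0 hZ) (j + 5)), Real.exp_le_exp, Real.log_pow,
      Real.log_pow]
    push_cast
    linarith
  have := mul_le_mul_of_nonneg_left key (pow_nonneg (mul_nonneg zero_le_two hZ.le) (j + 5))
  rw [← mul_pow, show 2 * ballZ (j + 4) * (P / ballZ (j + 4)) = 2 * P by field_simp] at this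
  linarith

/-- In every dimension at least six, the contact bound holds up to a summable loss. -/
theorem contactBoundC_uniform {n : ℕ} (hn : 6 ≤ n) :
    ContactBoundC n (Real.exp (-(227 / (((n : ℝ) - 2) * ((n : ℝ) - 4))))) := by
  obtain ⟨j, rfl⟩ : ∃ j, n = j + 6 := ⟨n - 6, by omega⟩
  have h := contactBoundC_loss j
  rw [loss] at h
  push_cast
  rw [show (j : ℝ) + 6 - 2 = (j : ℝ) + 4 by ring, show (j : ℝ) + 6 - 4 = (j : ℝ) + 2 by ring]
  exact h

end Vale.Agent.P237.Uniform
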